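import Vale.Agent.P262.Steinitz

namespace Vale.Agent.Results.P262.SqrtD

open Vale.Agent.P262

/-- `σ(d) ≤ C √d` and `S₂(d) ≤ C √d` with an absolute constant `C`. -/
theorem result : ∃ C : ℝ, ∀ d : ℕ, 1 ≤ d →
    (∀ (N : ℕ) (v : Fin N → EuclideanSpace ℝ (Fin d)), (∀ i, ‖v i‖ ≤ 1) →
      ∃ ε : Fin N → ℝ, (∀ i, ε i = 1 ∨ ε i = -1) ∧
        ∀ k ≤ N, ‖∑ i ∈ Finset.univ.filter (fun i : Fin N => i.val < k), ε i • v i‖
          ≤ C * Real.sqrt d) ∧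
    (∀ (N : ℕ) (v : Fin N → EuclideanSpace ℝ (Fin d)), (∀ i, ‖v i‖ ≤ 1) → ∑ i, v i = 0 →
      ∃ π : Equiv.Perm (Fin N),
        ∀ k ≤ N, ‖∑ i ∈ Finset.univ.filter (fun i : Fin N => i.val < k), v (π i)‖
          ≤ C * Real.sqrt d) :=
  ⟨6 * 10 ^ 10, fun _ hd => ⟨fun N v hv => signing hd N v hv, fun N v hv h0 =>
    transfer _ v h0 fun π => signing hd N (fun i => v (π i)) fun i => hv _⟩⟩

end Vale.Agent.Results.P262.SqrtD
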